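import Vale.Agent.P050.H868.Dense

namespace Vale.Agent.Results.P050.ContractiveHosts

open Vale.Agent.P050 Vale.Agent.P050.H868

/-- **Sidorenko's conjecture reduces to hypercontractive targets.**
`Bounded q K r W`: the symmetric kernel `W` on the finite probability space `(U, r)` is nonnegative
with mean 1, and its norm from `L^q` to the dual of `L^q` is at most `K`.
(1) Let `H` be a bipartite graph with `2 a` vertices, all of degree `d`, `d` at least 2, and
`q = (a d - 1) / (a (d - 1))`. Then `H` is Sidorenko if and only if for each `δ > 0` there is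
`c > 0` such that `t(H, W) ≥ c n ^ (-δ)` for all finite probability spaces with `n` points and all
kernels `W` with mean 1 which are contractions from `L^q` to its dual.
(2) Such a kernel has all degrees 1, and all its other eigenvalues are at most `q - 1` in absolute
value; in (1) this number is `(a - 1) / (a (d - 1)) < 1 / (d - 1)`.
(3) Let `H` be any bipartite graph with an edge and with `v` vertices and let `φ` be a real number
larger than 1 and than `v / 2`. Then `t(H, G) ≥ p(G) ^ φ` for all graphs `G` if and only if for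
each `δ > 0` there is `ε > 0` such that `t(H, G) ≥ n ^ (-δ) p(G) ^ φ` for all arc-transitive graphs
`G` with `n ≥ 1 / ε` vertices for which the kernel equal to `1 / p(G)` on the edges of `G` has norm
at most `n ^ ε` from `L^q` to its dual, `q = (2 φ - 2) / (2 φ - v)`. If `φ` is the number of edges
of `H` then this is Sidorenko's inequality for `H`.
(4) The graphs in (3) have edge density at least `n ^ (1 - q - 2 q ε)`. -/
theorem result :
    (∀ {V : Type} [Fintype V] (H : SimpleGraph V) (d a : ℕ), H.IsBipartite →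
      (∀ v, Nat.card {u // H.Adj v u} = d) → 2 ≤ d → 1 ≤ a → Fintype.card V = 2 * a →
      ((∀ (X : Type) [Finite X] [Nonempty X] (G : SimpleGraph X),
          edgeDensity G ^ Nat.card H.edgeSet ≤ homDensity H G) ↔
        ∀ δ : ℝ, 0 < δ → ∃ c : ℝ, 0 < c ∧ ∀ (U : Type) [Fintype U] (r : U → ℝ)
          (W : Sym2 U → ℝ), Bounded ((a * d - 1) / (a * (d - 1))) 1 r W →
            c * (Fintype.card U : ℝ) ^ (-δ) ≤ kernelDensity H r W)) ∧
    (∀ (U : Type) [Fintype U] (q : ℝ) (r : U → ℝ) (W : Sym2 U → ℝ), 1 ≤ q → Bounded q 1 r W →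
      (∀ x, 0 < r x → ∑ y, r y * W s(x, y) = 1) ∧
      ∀ h : U → ℝ, ∑ x, r x * h x = 0 →
        |∑ x, ∑ y, r x * r y * (h x * W s(x, y) * h y)| ≤ (q - 1) * ∑ x, r x * h x ^ 2) ∧
    (∀ {V : Type} [Fintype V] (H : SimpleGraph V) (φ : ℝ), H.IsBipartite →
      (∃ u v, H.Adj u v) → 1 < φ → Fintype.card V < 2 * φ →
      ((∀ (X : Type) [Finite X] [Nonempty X] (G : SimpleGraph X),
          edgeDensity G ^ φ ≤ homDensity H G) ↔
        ∀ δ : ℝ, 0 < δ → ∃ ε : ℝ, 0 < ε ∧ ∀ (U : Type) [Fintype U] [Nonempty U]
          (G : SimpleGraph U), ArcTransitive G →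
          Bounded ((2 * φ - 2) / (2 * φ - Fintype.card V)) ((Fintype.card U : ℝ) ^ ε)
            (fun _ => 1 / (Fintype.card U : ℝ)) (graphKernel G) →
          1 / ε ≤ Fintype.card U →
            (Fintype.card U : ℝ) ^ (-δ) * edgeDensity G ^ φ ≤ homDensity H G)) ∧
    (∀ (U : Type) [Fintype U] (G : SimpleGraph U) (q ε : ℝ), 1 ≤ q → 0 ≤ ε → ArcTransitive G →
      Bounded q ((Fintype.card U : ℝ) ^ ε) (fun _ => 1 / (Fintype.card U : ℝ)) (graphKernel G) →
      (Fintype.card U : ℝ) ^ (1 - q - 2 * q * ε) ≤ edgeDensity G) := by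
  classical
  refine ⟨?_, ?_, ?_, fun U _ G q ε hq hε hG hB => density_ge hq hε hG hB⟩
  · intro V _ H d a hH hd hd0 ha0 ha
    obtain ⟨s, hs⟩ := exists_side hH
    constructor
    · intro hS δ hδ
      refine ⟨1, one_pos, fun U _ r W hW => ?_⟩
      have h1 := regular_conv hs hS hW
      have hne : Nonempty U := by
        by_contra h
        rw [not_nonempty_iff] at h
        have := hW.r_sum
        rw [Finset.univ_eq_empty, Finset.sum_empty] at this
        exact zero_ne_one this
      have h2 : (1 : ℝ) ≤ Fintype.card U := by exact_mod_cast Fintype.card_pos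
      have h3 : (Fintype.card U : ℝ) ^ (-δ) ≤ 1 :=
        Real.rpow_le_one_of_one_le_of_nonpos h2 (by linarith)
      rw [one_mul]
      exact h3.trans h1
    · intro hyp X _ _ G
      have := Fintype.ofFinite X
      refine regular_main hs hd0 hd ha0 ha (fun δ hδ => ?_) G
      obtain ⟨c, hc, h⟩ := hyp δ hδ
      exact ⟨c, hc, fun U _ _ r W hW => h U r W hW⟩
  · intro U _ q r W hq hW
    exact ⟨fun x hx => degree_one hq hW hx, fun h hh => spectral_gap hq hW hh⟩
  · intro V _ H φ hH hE hφ hv
    obtain ⟨s, hs⟩ := exists_side hH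
    obtain ⟨u₀, v₀, huv⟩ := hE
    constructor
    · intro hS δ hδ
      refine ⟨1, one_pos, fun U _ _ G _ _ _ => ?_⟩
      have h2 : (1 : ℝ) ≤ Fintype.card U := by exact_mod_cast Fintype.card_pos
      have h3 : (Fintype.card U : ℝ) ^ (-δ) ≤ 1 :=
        Real.rpow_le_one_of_one_le_of_nonpos h2 (by linarith)
      have h4 : 0 ≤ edgeDensity G ^ φ := Real.rpow_nonneg (by
        rw [edgeDensity_eq_arcs]; positivity) _
      calc (Fintype.card U : ℝ) ^ (-δ) * edgeDensity G ^ φ ≤ 1 * edgeDensity G ^ φ :=
            mul_le_mul_of_nonneg_right h3 h4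
        _ = edgeDensity G ^ φ := one_mul _
        _ ≤ homDensity H G := hS U G
    · intro hyp X _ _ G
      have := Fintype.ofFinite X
      exact general_bounded hs huv hφ hv hyp G

end Vale.Agent.Results.P050.ContractiveHosts
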