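import Vale.Agent.P050.H655.EdgeDen

namespace Vale.Agent.Results.P050.LadderDecay

open Vale.Agent.P050 Vale.Agent.P050.H148

/-- **Moebius ladders: exponent `3 k` up to an error which is exponentially small in the square
root of `k`.** Let `M(k)` be the Moebius ladder with `k` rungs (`moebiusLadder k`, `2 k` vertices
and `3 k` edges, `k` odd), `Q` the graph of the 3-dimensional cube, `p`, `t` the edge density and
the homomorphism densities of a finite graph `G`. Let `N = 2 ^ s` and `s ≤ 2 ^ t`.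
(A) For all odd `k ≥ s ^ 2 + (2 t + 3) s + 13`:
(A1) `p ^ (3 k N + 12) ≤ t(M(k)) ^ N t(Q)`, that is, the disjoint union of `N` copies of `M(k)` and
one cube satisfies Sidorenko's inequality;
(A2) let `B` be the connected graph which consists of `N` copies of `M(k)` and one cube, all of them
with one common rung (`bouquet N k`, with `8 + 2 N (k - 1)` vertices and `12 + N (3 k - 1)` edges);
it satisfies Sidorenko's inequality, `p ^ (12 + N (3 k - 1)) ≤ t(B)`;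
(A3) `p ^ (3 k N + 8) ≤ t(M(k)) ^ N`.
(B) For `s ≥ 1` and all odd `k ≥ 4 s ^ 2 + (8 t + 12) s + 59`:
(B1) `p ^ 48 t(C_4) ^ (3 k N) ≤ t(M(k)) ^ (4 N) t(Q) ^ 4`;
(B2) `p ^ 48 t(C_4) ^ (3 k N) ≤ p ^ (4 N) t(B) ^ 4`;
(B3) `p ^ 32 t(C_4) ^ (3 k N) ≤ t(M(k)) ^ (4 N)`;
(B4) if `p ^ (12 k N) ≤ p ^ 32 t(C_4) ^ (3 k N)`, that is, `t(C_4) ≥ p ^ (4 - 32 / (3 k N))`, then
`t(M(k)) ≥ p ^ (3 k)`.
(C) For all odd `k ≥ 5` and all graphs, `t(M(k)) ≥ p ^ (3 k + 128 √k / 2 ^ √k)`.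
The ladder with four rungs, which is used in the definition of `B`, is the cube. -/
theorem result :
    (∀ (X : Type) [Fintype X] [Nonempty X] (G : SimpleGraph X) (k s t : ℕ), Odd k →
      s ≤ 2 ^ t → s ^ 2 + (2 * t + 3) * s + 13 ≤ k →
      (edgeDensity G ^ (3 * k * 2 ^ s + 12) ≤ homDensity (moebiusLadder k) G ^ (2 ^ s) *
        homDensity ((SimpleGraph.cycleGraph 4).boxProd (⊤ : SimpleGraph Bool)) G) ∧
      (edgeDensity G ^ (12 + 2 ^ s * (3 * k - 1)) ≤ homDensity (M18.bouquet (2 ^ s) k) G) ∧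
      (edgeDensity G ^ (3 * k * 2 ^ s + 8) ≤ homDensity (moebiusLadder k) G ^ (2 ^ s))) ∧
    (∀ (X : Type) [Fintype X] [Nonempty X] (G : SimpleGraph X) (k s t : ℕ), Odd k → 1 ≤ s →
      s ≤ 2 ^ t → 4 * s ^ 2 + (8 * t + 12) * s + 59 ≤ k →
      (edgeDensity G ^ 48 * homDensity (SimpleGraph.cycleGraph 4) G ^ (3 * k * 2 ^ s) ≤
        homDensity (moebiusLadder k) G ^ (4 * 2 ^ s) *
          homDensity ((SimpleGraph.cycleGraph 4).boxProd (⊤ : SimpleGraph Bool)) G ^ 4) ∧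
      (edgeDensity G ^ 48 * homDensity (SimpleGraph.cycleGraph 4) G ^ (3 * k * 2 ^ s) ≤
        edgeDensity G ^ (4 * 2 ^ s) * homDensity (M18.bouquet (2 ^ s) k) G ^ 4) ∧
      (edgeDensity G ^ 32 * homDensity (SimpleGraph.cycleGraph 4) G ^ (3 * k * 2 ^ s) ≤
        homDensity (moebiusLadder k) G ^ (4 * 2 ^ s)) ∧
      (edgeDensity G ^ (12 * k * 2 ^ s) ≤ edgeDensity G ^ 32 *
          homDensity (SimpleGraph.cycleGraph 4) G ^ (3 * k * 2 ^ s) →
        edgeDensity G ^ (3 * k) ≤ homDensity (moebiusLadder k) G)) ∧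
    (∀ (X : Type) [Fintype X] [Nonempty X] (G : SimpleGraph X) (k : ℕ), Odd k → 5 ≤ k →
      edgeDensity G ^ (3 * (k : ℝ) + 128 * Real.sqrt k / 2 ^ Real.sqrt k) ≤
        homDensity (moebiusLadder k) G) ∧
    (Nonempty (moebiusLadder 4 ≃g
      (SimpleGraph.cycleGraph 4).boxProd (⊤ : SimpleGraph Bool))) :=
  ⟨fun _ _ _ G k s t hk h1 h2 => ⟨H655.wide_cube G k s t hk ⟨h1, h2⟩,
      H655.wide_bouq G k s t hk ⟨h1, h2⟩, H655.wide_exp G k s t hk ⟨h1, h2⟩⟩,
    fun _ _ _ G k s t hk h1 h2 h3 => by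
      have h := H655.main_ineq G k s t hk ⟨h1, h2, h3⟩
      have h4 := H655.der_four G h
      exact ⟨h, H655.bouq_four G k s t hk ⟨h1, h2, h3⟩, h4,
        H655.der_rich G (by positivity) h4⟩,
    fun _ _ _ G k hk h5 => H655.wide_real G k hk h5, M18.cube_iso⟩

end Vale.Agent.Results.P050.LadderDecay
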