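import Vale.Agent.P050.H19.Cls2

namespace Vale.Agent.Results.P050.NeighbourClasses

open Vale.Agent.P050

/-- **The theorem of Conlon, Fox and Sudakov for classes.** Let `H` be a bipartite graph with the
parts `A` and `B`, let `A` be divided into nonempty classes (the fibres of `cls`, which is onto),
let each vertex of `B` have at most one neighbour in each class, and let the number of the vertices
of `B` which have a neighbour in every class be at least the product of the sizes of the classes.
Then `H` satisfies Sidorenko's inequality `t(H, G) ≥ p(G) ^ e(H)` for every finite graph `G` with at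
least one vertex. The other vertices of `B` are arbitrary, in number and in degree. -/
theorem result {A B ι : Type} [Finite A] [Finite B] [Fintype ι] (H : SimpleGraph (A ⊕ B))
    (cls : A → ι) (hs : Function.Surjective cls)
    (hA : ∀ a a', ¬ H.Adj (Sum.inl a) (Sum.inl a'))
    (hB : ∀ b b', ¬ H.Adj (Sum.inr b) (Sum.inr b'))
    (h1 : ∀ b a a', H.Adj (Sum.inl a) (Sum.inr b) → H.Adj (Sum.inl a') (Sum.inr b) →
      cls a = cls a' → a = a')
    (h2 : ∏ i, Nat.card {a // cls a = i} ≤
      Nat.card {b // ∀ i, ∃ a, cls a = i ∧ H.Adj (Sum.inl a) (Sum.inr b)})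
    (U : Type) [Finite U] [Nonempty U] (G : SimpleGraph U) :
    edgeDensity G ^ Nat.card H.edgeSet ≤ homDensity H G :=
  H19.cfs H cls hs hA hB h1 h2 U G

end Vale.Agent.Results.P050.NeighbourClasses
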