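import Vale.Agent.P050.H799.Semi
import Vale.Agent.P050.H799.Orb

/-! Semi-covers and orbit blow-ups of bipartite graphs. -/

namespace Vale.Agent.Results.P050.SemiCovers

open Vale.Agent.P050.H799

theorem result :
    (∀ (A B : Type) [Fintype A] [Fintype B] (E : A → B → Prop) (k : A → ℕ) (M : ℕ)
      (c : B → Fin M → ∀ a, Fin (k a)), (∀ a, 0 < k a) → ∏ a, k a ≤ M →
      (∀ (X : Type) [Fintype X] [Nonempty X] (G : SimpleGraph X),
        homDensity (bip E) G ^ M ≤ homDensity (bip (cover E k M c)) G) ∧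
      (∀ s : ℝ, (∀ (X : Type) [Fintype X] [Nonempty X] (G : SimpleGraph X),
          edgeDensity G ^ s ≤ homDensity (bip E) G) →
        ∀ (X : Type) [Fintype X] [Nonempty X] (G : SimpleGraph X),
          edgeDensity G ^ (s * M) ≤ homDensity (bip (cover E k M c)) G) ∧
      (Sidorenko (bip E) → Sidorenko (bip (cover E k M c)))) ∧
    (∀ (A B B' Γ : Type) [Fintype A] [Fintype B] [Fintype B'] [Group Γ] [Fintype Γ]
      [MulAction Γ A] [MulAction Γ B] (E : A → B → Prop) (φ : B' → B) (r : ℝ), 1 ≤ r →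
      (∀ (g : Γ) a b, E (g • a) (g • b) ↔ E a b) →
      (∀ b, (Nat.card {b' // φ b' ∈ MulAction.orbit Γ b} : ℝ) =
        r * Nat.card (MulAction.orbit Γ b)) →
      (∀ (X : Type) [Fintype X] [Nonempty X] (G : SimpleGraph X),
        homDensity (bip E) G ^ r ≤ homDensity (bip fun a b' => E a (φ b')) G) ∧
      (∀ s : ℝ, (∀ (X : Type) [Fintype X] [Nonempty X] (G : SimpleGraph X),
          edgeDensity G ^ s ≤ homDensity (bip E) G) →
        ∀ (X : Type) [Fintype X] [Nonempty X] (G : SimpleGraph X),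
          edgeDensity G ^ (s * r) ≤ homDensity (bip fun a b' => E a (φ b')) G) ∧
      (Sidorenko (bip E) → Sidorenko (bip fun a b' => E a (φ b')))) :=
  ⟨fun _ _ _ _ E k M c hk hM => ⟨fun X _ _ G => semi E k hk M hM c X G,
      fun s h X _ _ G => semi_exp E k hk M hM c s h X G, semi_sid E k hk M hM c⟩,
    fun _ _ _ _ _ _ _ _ _ _ _ E φ r hr hE horb => ⟨fun X _ _ G => orb E hE φ r hr horb X G,
      fun s h X _ _ G => orb_exp E hE φ r hr horb s h X G, orb_sid E hE φ r hr horb⟩⟩

end Vale.Agent.Results.P050.SemiCovers
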